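import Vale.Agent.P282A53.Surj

/-!
P282, analytic double points: a formal double point is an analytic double point.
-/

open Filter Topology IsLocalRing
open Vale.Agent.P298.H941

noncomputable section

namespace Vale.Agent.P282A71

theorem JetIso.bij53 {R S : Type} [CommRing R] [CommRing S] [Algebra ℂ R] [Algebra ℂ S]
    {f : R →ₐ[ℂ] S} {m : Ideal R} {n : Ideal S} (h : JetIso f m n) (k : ℕ) :
    Function.Bijective
      (Ideal.quotientMapₐ (I := m ^ k) (n ^ k) f fun x hx => (h.mem k x).2 hx) := by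
  refine ⟨(injective_iff_map_eq_zero _).2 fun x hx => ?_, fun s => ?_⟩
  · obtain ⟨x, rfl⟩ := Ideal.Quotient.mk_surjective x
    exact Ideal.Quotient.eq_zero_iff_mem.2 ((h.mem k x).1 (Ideal.Quotient.eq_zero_iff_mem.1 hx))
  · obtain ⟨s, rfl⟩ := Ideal.Quotient.mk_surjective s
    obtain ⟨x, hx⟩ := h.dense k s
    exact ⟨Ideal.Quotient.mk _ x, (Ideal.Quotient.eq.2 hx).symm⟩

/-- a surjection between rings with the same jets is injective on jets -/
theorem inj_of_jets {A B T : Type} [CommRing A] [CommRing B] [CommRing T] [Algebra ℂ A]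
    [Algebra ℂ B] [Algebra ℂ T] [IsNoetherianRing B] {α : A →ₐ[ℂ] T} {β : B →ₐ[ℂ] T}
    {a : Ideal A} {b : Ideal B} {t : Ideal T} (hα : JetIso α a t) (hβ : JetIso β b t)
    (ψ : B →ₐ[ℂ] A) (hψ : Function.Surjective ψ) (hl : b.map ψ ≤ a) (k : ℕ) (x : B)
    (hx : ψ x ∈ a ^ k) : x ∈ b ^ k := by
  have h1 : b ^ k ≤ (a ^ k).comap ψ := fun y hy => by
    have h2 := Ideal.mem_map_of_mem ψ hy
    rw [Ideal.map_pow] at h2
    exact Ideal.pow_right_mono hl k h2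
  let p : (B ⧸ b ^ k) →ₐ[ℂ] A ⧸ a ^ k := Ideal.quotientMapₐ (a ^ k) ψ h1
  have hp : Function.Surjective p := fun s => by
    obtain ⟨s, rfl⟩ := Ideal.Quotient.mk_surjective s
    obtain ⟨y, rfl⟩ := hψ s
    exact ⟨Ideal.Quotient.mk _ y, rfl⟩
  let eA := AlgEquiv.ofBijective _ (hα.bij53 k)
  let eB := AlgEquiv.ofBijective _ (hβ.bij53 k)
  let θ : (B ⧸ b ^ k) →ₐ[ℂ] B ⧸ b ^ k := (eA.trans eB.symm).toAlgHom.comp p
  have hθ : Function.Injective θ :=
    hopf (θ : (B ⧸ b ^ k) →+* B ⧸ b ^ k) ((eA.trans eB.symm).surjective.comp hp)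
  rw [← Ideal.Quotient.eq_zero_iff_mem]
  refine hθ ?_
  have h3 : p (Ideal.Quotient.mk _ x) = 0 := Ideal.Quotient.eq_zero_iff_mem.2 hx
  rw [map_zero, AlgHom.comp_apply, h3, map_zero]

theorem core_aux (hJ : JET) {N M : ℕ} (K : Ideal (ON N)) (hK : K ≤ maximalIdeal (ON N))
    {T : Type} [CommRing T] [Algebra ℂ T] (t : Ideal T) (α : (ON N ⧸ K) →ₐ[ℂ] T)
    (q : ON M) (hq : q = ∑ i, zc i ^ 2) (β : (ON M ⧸ Ideal.span {q}) →ₐ[ℂ] T)
    (hα : JetIso α ((maximalIdeal (ON N)).map (Ideal.Quotient.mk K)) t)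
    (hβ : JetIso β ((maximalIdeal (ON M)).map (Ideal.Quotient.mk _)) t) :
    ∃ φ : ON M →ₐ[ℂ] ON N, (∀ i, φ (zc i) ∈ maximalIdeal (ON N)) ∧
      Function.Surjective ((Ideal.Quotient.mkₐ ℂ K).comp φ) ∧
      K.comap φ = Ideal.span {q} := by
  have : IsNoetherianRing (ON M) := P277Z.Oka.noe _
  have hQ : Ideal.span {q} ≤ maximalIdeal (ON M) :=
    (Ideal.span_singleton_le_iff_mem _).2 (by
      rw [hq]
      exact Ideal.sum_mem _ fun i _ => Ideal.pow_mem_of_mem _ (zc_max hJ i) 2 two_pos)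
  let a : ON N →ₐ[ℂ] T := α.comp (Ideal.Quotient.mkₐ ℂ K)
  let b : ON M →ₐ[ℂ] T := β.comp (Ideal.Quotient.mkₐ ℂ _)
  have ha : ∀ k x, a x ∈ t ^ k ↔ x ∈ maximalIdeal (ON N) ^ k ⊔ K := fun k x => by
    rw [← Ideal.mem_quotient_iff_mem_sup, Ideal.map_pow]
    exact hα.mem k _
  have hb : ∀ k x, b x ∈ t ^ k ↔ x ∈ maximalIdeal (ON M) ^ k ⊔ Ideal.span {q} := fun k x => by
    rw [← Ideal.mem_quotient_iff_mem_sup, Ideal.map_pow]
    exact hβ.mem k _
  have da : ∀ (k : ℕ) s, ∃ x, s - a x ∈ t ^ k := fun k s => by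
    obtain ⟨x, hx⟩ := hα.dense k s
    obtain ⟨x, rfl⟩ := Ideal.Quotient.mk_surjective x
    exact ⟨x, hx⟩
  have db : ∀ (k : ℕ) s, ∃ x, s - b x ∈ t ^ k := fun k s => by
    obtain ⟨x, hx⟩ := hβ.dense k s
    obtain ⟨x, rfl⟩ := Ideal.Quotient.mk_surjective x
    exact ⟨x, hx⟩
  have ha1 : ∀ x, a x ∈ t ↔ x ∈ maximalIdeal (ON N) := fun x => by
    have h := ha 1 x
    rwa [pow_one, pow_one, sup_eq_left.2 hK] at h
  have hb1 : ∀ x, b x ∈ t ↔ x ∈ maximalIdeal (ON M) := fun x => by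
    have h := hb 1 x
    rwa [pow_one, pow_one, sup_eq_left.2 hQ] at h
  have t2 : t ^ 2 ≤ t := Ideal.pow_le_self two_ne_zero
  have bz : ∀ i, b (zc i) ∈ t := fun i => (hb1 _).2 (zc_max hJ i)
  choose w hw using fun i : Fin M => da 2 (b (zc i))
  have aw : ∀ i, a (w i) ∈ t := fun i => by
    have h := t.sub_mem (bz i) (t2 (hw i))
    rwa [sub_sub_cancel] at h
  obtain ⟨g, hg, g0, eg⟩ := exists_map w fun i => (ha1 _).1 (aw i)
  have hz : ∀ i, pull g hg g0 (zc i) ∈ maximalIdeal (ON N) := fun i => by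
    rw [eg]
    exact (ha1 _).1 (aw i)
  have hs : Function.Surjective ((Ideal.Quotient.mkₐ ℂ K).comp (pull g hg g0)) := by
    refine surj hJ K hK _ hz fun j => ?_
    obtain ⟨x, hx⟩ := db 2 (a (zc j))
    have hx1 : x ∈ maximalIdeal (ON M) := by
      have h := t.sub_mem ((ha1 _).2 (zc_max hJ j)) (t2 hx)
      rw [sub_sub_cancel] at h
      exact (hb1 _).1 h
    rw [(hJ M).1] at hx1
    obtain ⟨c, rfl⟩ := Ideal.mem_span_range_iff_exists_fun.1 hx1
    choose d hd using fun i : Fin M => da 1 (b (c i))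
    have e : a (zc j - ∑ i, d i * w i) = a (zc j) - b (∑ i, c i * zc i) +
        ∑ i, ((b (c i) - a (d i)) * b (zc i) + a (d i) * (b (zc i) - a (w i))) := by
      rw [map_sub, map_sum, map_sum, sub_add, ← Finset.sum_sub_distrib]
      refine congrArg _ (Finset.sum_congr rfl fun i _ => ?_)
      rw [map_mul, map_mul]
      ring
    have h1 : zc j - ∑ i, d i * w i ∈ maximalIdeal (ON N) ^ 2 ⊔ K := by
      rw [← ha, e]
      refine Ideal.add_mem _ hx (Ideal.sum_mem _ fun i _ =>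
        Ideal.add_mem _ ?_ (Ideal.mul_mem_left _ _ (hw i)))
      rw [pow_succ t 1]
      exact Ideal.mul_mem_mul (hd i) (bz i)
    have h2 : ∑ i, d i * w i ∈ Ideal.span (Set.range fun i => pull g hg g0 (zc i)) :=
      Ideal.sum_mem _ fun i _ => Ideal.mul_mem_left _ _ (Ideal.subset_span ⟨i, eg i⟩)
    rw [sup_assoc, sup_comm K, ← add_sub_cancel (∑ i, d i * w i) (zc j)]
    exact Submodule.add_mem_sup h2 h1
  set ψ₀ := (Ideal.Quotient.mkₐ ℂ K).comp (pull g hg g0) with hψ₀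
  have loc : ∀ φ : ON M →ₐ[ℂ] ON N, (∀ i, φ (zc i) ∈ maximalIdeal (ON N)) →
      ∀ x ∈ maximalIdeal (ON M), φ x ∈ maximalIdeal (ON N) := fun φ hφ x hx => by
    have h := hom_pow hJ _ φ hφ 1 x (by rw [pow_one]; exact hx)
    rwa [pow_one] at h
  have hm : (maximalIdeal (ON M)).map ψ₀ = (maximalIdeal (ON N)).map (Ideal.Quotient.mk K) := by
    have h1 : (maximalIdeal (ON M)).map ψ₀ ≤ (maximalIdeal (ON N)).map (Ideal.Quotient.mk K) :=
      Ideal.map_le_iff_le_comap.2 fun x hx => Ideal.mem_map_of_mem _ (loc _ hz x hx)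
    have h2 : (maximalIdeal (ON N)).map (Ideal.Quotient.mk K) ≠ ⊤ := fun h => by
      have h3 : Ideal.Quotient.mk K 1 ∈ (maximalIdeal (ON N)).map (Ideal.Quotient.mk K) := by
        rw [h]
        exact Submodule.mem_top
      rw [Ideal.mem_quotient_iff_mem_sup, sup_eq_left.2 hK] at h3
      exact (maximalIdeal.isMaximal (ON N)).ne_top ((Ideal.eq_top_iff_one _).2 h3)
    rcases Ideal.map_eq_top_or_isMaximal_of_surjective ψ₀ hs (maximalIdeal.isMaximal (ON M))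
      with h | h
    · exact absurd (top_le_iff.1 (h ▸ h1)) h2
    · exact h.eq_of_le h2 h1
  have hq3 : ψ₀ q ∈ (maximalIdeal (ON M) ^ 3).map ψ₀ := by
    rw [Ideal.map_pow, hm, ← hα.mem]
    have e0 : ∑ i, b (zc i) ^ 2 = 0 := by
      have h : b q = 0 := by
        show β (Ideal.Quotient.mk _ q) = 0
        rw [Ideal.Quotient.eq_zero_iff_mem.2 (Ideal.mem_span_singleton_self q), map_zero]
      rw [← h, hq, map_sum]
      exact Finset.sum_congr rfl fun i _ => (map_pow _ _ _).symm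
    have e1 : α (ψ₀ q) = ∑ i, a (w i) ^ 2 := by
      show a (pull g hg g0 q) = _
      rw [hq, map_sum, map_sum]
      exact Finset.sum_congr rfl fun i _ => by rw [map_pow, map_pow, eg]
    have e2 : ∑ i, a (w i) ^ 2 = -∑ i, (b (zc i) - a (w i)) * (b (zc i) + a (w i)) := by
      rw [Finset.sum_congr rfl fun i _ => (by ring : (b (zc i) - a (w i)) * (b (zc i) + a (w i)) =
        b (zc i) ^ 2 - a (w i) ^ 2), Finset.sum_sub_distrib, e0, zero_sub, neg_neg]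
    rw [e1, e2, pow_succ t 2]
    exact neg_mem (Ideal.sum_mem _ fun i _ => Ideal.mul_mem_mul (hw i) (t.add_mem (bz i) (aw i)))
  obtain ⟨c, hc, ec⟩ := (Ideal.mem_map_iff_of_surjective ψ₀ hs).1 hq3
  obtain ⟨e, he1, he2⟩ := morse_equiv hJ M (q - c) (by
    rw [← hq, sub_sub_cancel_left]
    exact neg_mem hc)
  let φ : ON M →ₐ[ℂ] ON N := (pull g hg g0).comp e.toAlgHom
  have hφ : ∀ i, φ (zc i) ∈ maximalIdeal (ON N) := fun i => by
    refine loc _ hz (e (zc i)) ?_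
    have h := Ideal.add_mem _ (Ideal.pow_le_self two_ne_zero (he1 i)) (zc_max hJ i)
    rwa [sub_add_cancel] at h
  have hφs : Function.Surjective ((Ideal.Quotient.mkₐ ℂ K).comp φ) := hs.comp e.surjective
  have hle : Ideal.span {q} ≤ K.comap φ := by
    rw [Ideal.span_singleton_le_iff_mem, Ideal.mem_comap, ← Ideal.Quotient.eq_zero_iff_mem]
    show ψ₀ (e q) = 0
    rw [← hq] at he2
    rw [he2, map_sub, ec, sub_self]
  refine ⟨φ, hφ, hφs, le_antisymm (fun x hx => mem_of_forall_pow _ fun k => ?_) hle⟩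
  have h1 := inj_of_jets hα hβ (Ideal.quotientMapₐ K φ hle)
    (fun s => by
      obtain ⟨y, rfl⟩ := hφs s
      exact ⟨Ideal.Quotient.mk _ y, rfl⟩)
    (by
      rw [Ideal.map_le_iff_le_comap, Ideal.map_le_iff_le_comap]
      exact fun y hy => Ideal.mem_map_of_mem (Ideal.Quotient.mk K) (loc φ hφ y hy))
    k (Ideal.Quotient.mk _ x)
    (by
      have h : Ideal.quotientMapₐ K φ hle (Ideal.Quotient.mk _ x) = 0 :=
        Ideal.Quotient.eq_zero_iff_mem.2 hx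
      rw [h]
      exact zero_mem _)
  rw [← Ideal.map_pow, Ideal.mem_quotient_iff_mem_sup] at h1
  obtain ⟨u, hu, v, hv, rfl⟩ := Submodule.mem_sup.1 h1
  exact ⟨v, hv, by rwa [add_sub_cancel_right]⟩

/-- a quotient of a ring of germs with the jets of the double point is a double point -/
theorem core (hJ : JET) {N M : ℕ} (K : Ideal (ON N)) (hK : K ≤ maximalIdeal (ON N))
    {T : Type} [CommRing T] [Algebra ℂ T] (t : Ideal T) (α : (ON N ⧸ K) →ₐ[ℂ] T)
    (β : (ON M ⧸ Ideal.span {∑ i, (zc i : ON M) ^ 2}) →ₐ[ℂ] T)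
    (hα : JetIso α ((maximalIdeal (ON N)).map (Ideal.Quotient.mk K)) t)
    (hβ : JetIso β ((maximalIdeal (ON M)).map (Ideal.Quotient.mk _)) t) :
    ∃ φ : ON M →ₐ[ℂ] ON N, (∀ i, φ (zc i) ∈ maximalIdeal (ON N)) ∧
      Function.Surjective ((Ideal.Quotient.mkₐ ℂ K).comp φ) ∧
      K.comap φ = Ideal.span {∑ i, (zc i : ON M) ^ 2} :=
  core_aux hJ K hK t α _ rfl β hα hβ

/-- the isomorphism of the quotients -/
theorem core_equiv (hJ : JET) {N M : ℕ} (K : Ideal (ON N)) (hK : K ≤ maximalIdeal (ON N))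
    {T : Type} [CommRing T] [Algebra ℂ T] (t : Ideal T) (α : (ON N ⧸ K) →ₐ[ℂ] T)
    (β : (ON M ⧸ Ideal.span {∑ i, (zc i : ON M) ^ 2}) →ₐ[ℂ] T)
    (hα : JetIso α ((maximalIdeal (ON N)).map (Ideal.Quotient.mk K)) t)
    (hβ : JetIso β ((maximalIdeal (ON M)).map (Ideal.Quotient.mk _)) t) :
    Nonempty ((ON M ⧸ Ideal.span {∑ i, (zc i : ON M) ^ 2}) ≃ₐ[ℂ] ON N ⧸ K) := by
  obtain ⟨φ, -, h2, h3⟩ := core hJ K hK t α β hα hβ
  refine ⟨AlgEquiv.ofBijective (Ideal.quotientMapₐ K φ h3.ge)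
    ⟨(injective_iff_map_eq_zero _).2 fun x hx => ?_, fun s => ?_⟩⟩
  · obtain ⟨x, rfl⟩ := Ideal.Quotient.mk_surjective x
    have h0 : Ideal.Quotient.mk K (φ x) = 0 := hx
    have h : x ∈ K.comap φ := Ideal.mem_comap.2 (Ideal.Quotient.eq_zero_iff_mem.1 h0)
    rw [h3] at h
    exact Ideal.Quotient.eq_zero_iff_mem.2 h
  · obtain ⟨y, rfl⟩ := h2 s
    exact ⟨Ideal.Quotient.mk _ y, rfl⟩

end Vale.Agent.P282A71
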