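import Vale.Agent.P282A53.Sqrt
import Vale.Agent.P282A14.Inv

/-!
P282, analytic double points: the holomorphic Morse lemma.
-/

open Filter Topology IsLocalRing
open Vale.Agent.P298.H941

noncomputable section

namespace Vale.Agent.P282A71

theorem quad_of_mem {R : Type} [CommRing R] {N : ℕ} (z : Fin N → R) (v : R)
    (hv : v ∈ Ideal.span (Set.range z) * Ideal.span (Set.range z)) :
    ∃ g : Fin N → Fin N → R, v = ∑ i, ∑ j, g i j * (z i * z j) := by
  refine Submodule.mul_induction_on hv (fun a ha b hb => ?_) fun a b ha hb => ?_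
  · obtain ⟨α, rfl⟩ := Ideal.mem_span_range_iff_exists_fun.1 ha
    obtain ⟨β, rfl⟩ := Ideal.mem_span_range_iff_exists_fun.1 hb
    refine ⟨fun i j => α i * β j, ?_⟩
    rw [Finset.sum_mul_sum]
    exact Finset.sum_congr rfl fun i _ => Finset.sum_congr rfl fun j _ => by ring
  · obtain ⟨g, rfl⟩ := ha
    obtain ⟨k, rfl⟩ := hb
    refine ⟨fun i j => g i j + k i j, ?_⟩
    rw [← Finset.sum_add_distrib]
    refine Finset.sum_congr rfl fun i _ => ?_
    rw [← Finset.sum_add_distrib]
    exact Finset.sum_congr rfl fun j _ => by ring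

theorem cubic_of_mem {R : Type} [CommRing R] {N : ℕ} (z : Fin N → R) (I : Ideal R) (c : R)
    (hc : c ∈ I * (Ideal.span (Set.range z) * Ideal.span (Set.range z))) :
    ∃ g : Fin N → Fin N → R, (∀ i j, g i j ∈ I) ∧ c = ∑ i, ∑ j, g i j * (z i * z j) := by
  refine Submodule.mul_induction_on hc (fun a ha b hb => ?_) fun a b ha hb => ?_
  · obtain ⟨g, rfl⟩ := quad_of_mem z b hb
    refine ⟨fun i j => a * g i j, fun i j => I.mul_mem_right _ ha, ?_⟩
    rw [Finset.mul_sum]
    refine Finset.sum_congr rfl fun i _ => ?_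
    rw [Finset.mul_sum]
    exact Finset.sum_congr rfl fun j _ => by ring
  · obtain ⟨g, hg, rfl⟩ := ha
    obtain ⟨k, hk, rfl⟩ := hb
    refine ⟨fun i j => g i j + k i j, fun i j => I.add_mem (hg i j) (hk i j), ?_⟩
    rw [← Finset.sum_add_distrib]
    refine Finset.sum_congr rfl fun i _ => ?_
    rw [← Finset.sum_add_distrib]
    exact Finset.sum_congr rfl fun j _ => by ring

theorem sum_sq_mulVec {R : Type} [CommRing R] {N : ℕ} (z : Fin N → R)
    (A : Matrix (Fin N) (Fin N) R) :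
    ∑ i, A.mulVec z i ^ 2 = ∑ i, ∑ j, (A.transpose * A) i j * (z i * z j) := by
  have h1 : ∑ i, A.mulVec z i ^ 2 = A.mulVec z ⬝ᵥ A.mulVec z :=
    Finset.sum_congr rfl fun i _ => sq _
  have h2 : ∑ i, ∑ j, (A.transpose * A) i j * (z i * z j) =
      z ⬝ᵥ (A.transpose * A).mulVec z := by
    refine Finset.sum_congr rfl fun i _ => ?_
    show _ = z i * ∑ j, (A.transpose * A) i j * z j
    rw [Finset.mul_sum]
    exact Finset.sum_congr rfl fun j _ => by ring
  rw [h1, h2, ← Matrix.mulVec_mulVec, Matrix.dotProduct_mulVec, Matrix.dotProduct_mulVec,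
    Matrix.vecMul_transpose, Matrix.dotProduct_mulVec]

/-- the Morse lemma: new coordinates -/
theorem morse (hJ : JET) (N : ℕ) (f : ON N)
    (hf : f - ∑ i, zc i ^ 2 ∈ maximalIdeal (ON N) ^ 3) :
    ∃ w : Fin N → ON N, (∀ i, w i - zc i ∈ maximalIdeal (ON N) ^ 2) ∧ ∑ i, w i ^ 2 = f := by
  have hm := (hJ N).1
  have hz : ∀ i, zc i ∈ maximalIdeal (ON N) := fun i => by
    rw [hm]
    exact Ideal.subset_span ⟨i, rfl⟩
  have hf' : f - ∑ i, zc i ^ 2 ∈ maximalIdeal (ON N) *
      (Ideal.span (Set.range zc) * Ideal.span (Set.range zc)) := by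
    rw [← hm, ← sq, ← pow_succ']
    exact hf
  obtain ⟨g, hg, hc⟩ := cubic_of_mem zc _ _ hf'
  let u : ON N := algebraMap ℂ (ON N) (1 / 2)
  have hu : u + u = 1 := by
    rw [← map_add, add_halves, map_one]
  obtain ⟨S, hS1, hS2⟩ := sqrt N N (Matrix.of fun i j => u * (g i j + g j i))
    (by
      ext i j
      rw [Matrix.transpose_apply, Matrix.of_apply, Matrix.of_apply, add_comm])
    (fun i j => by
      rw [Matrix.of_apply]
      exact Ideal.mul_mem_left _ _ (Ideal.add_mem _ (hg i j) (hg j i)))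
  refine ⟨(1 + S).mulVec zc, fun i => ?_, ?_⟩
  · rw [Matrix.add_mulVec, Matrix.one_mulVec, Pi.add_apply, add_sub_cancel_left, sq]
    show ∑ j, S i j * zc j ∈ _
    exact Ideal.sum_mem _ fun j _ => Ideal.mul_mem_mul (hS1 i j) (hz j)
  · rw [sum_sq_mulVec, hS2]
    have e1 : ∀ i : Fin N, ∑ j, (1 + Matrix.of fun i j => u * (g i j + g j i) :
        Matrix (Fin N) (Fin N) (ON N)) i j * (zc i * zc j) =
        zc i ^ 2 + (u * ∑ j, g i j * (zc i * zc j) + u * ∑ j, g j i * (zc j * zc i)) := by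
      intro i
      have e2 : ∑ j, (1 : Matrix (Fin N) (Fin N) (ON N)) i j * (zc i * zc j) = zc i ^ 2 := by
        rw [Finset.sum_eq_single i, Matrix.one_apply_eq, one_mul, sq]
        · intro j _ hj
          rw [Matrix.one_apply_ne hj.symm, zero_mul]
        · intro h
          exact absurd (Finset.mem_univ i) h
      rw [← e2, Finset.mul_sum, Finset.mul_sum, ← Finset.sum_add_distrib,
        ← Finset.sum_add_distrib]
      refine Finset.sum_congr rfl fun j _ => ?_
      rw [Matrix.add_apply, Matrix.of_apply]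
      ring
    rw [Finset.sum_congr rfl fun i _ => e1 i, Finset.sum_add_distrib, Finset.sum_add_distrib,
      ← Finset.mul_sum, ← Finset.mul_sum,
      Finset.sum_comm (f := fun i j => g j i * (zc j * zc i)), ← hc, ← add_mul, hu, one_mul,
      add_sub_cancel]

/-- a family of germs vanishing at the origin is the family of coordinates of a map germ -/
theorem exists_map {E : Type} [NormedAddCommGroup E] [NormedSpace ℂ E] {M : ℕ}
    (w : Fin M → O E) (hw : ∀ i, w i ∈ maximalIdeal (O E)) :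
    ∃ (g : E → Fin M → ℂ) (hg : AnalyticAt ℂ g 0) (h0 : g 0 = 0),
      ∀ i, pull g hg h0 (zc i) = w i := by
  choose f hf e using fun i => exists_rep (w i)
  refine ⟨fun x i => f i x, analyticAt_pi_iff.2 hf, ?_, fun i => e i⟩
  funext i
  have h := hw i
  rw [← e i, P298.H941.mem_maximalIdeal, ev0_mk] at h
  exact h

/-- the Morse lemma: a surjective pullback which carries the sum of squares to `f` -/
theorem morse_pull (hJ : JET) (N : ℕ) (f : ON N)
    (hf : f - ∑ i, zc i ^ 2 ∈ maximalIdeal (ON N) ^ 3) :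
    ∃ (g : (Fin N → ℂ) → Fin N → ℂ) (hg : AnalyticAt ℂ g 0) (h0 : g 0 = 0),
      (∀ i, pull g hg h0 (zc i) - zc i ∈ maximalIdeal (ON N) ^ 2) ∧
      Function.Surjective (pull g hg h0) ∧ pull g hg h0 (∑ i, zc i ^ 2) = f := by
  obtain ⟨w, hw1, hw2⟩ := morse hJ N f hf
  have hz : ∀ i, zc i ∈ maximalIdeal (ON N) := fun i => by
    rw [(hJ N).1]
    exact Ideal.subset_span ⟨i, rfl⟩
  have hw : ∀ i, w i ∈ maximalIdeal (ON N) := fun i => by
    have h := Ideal.add_mem _ (Ideal.pow_le_self two_ne_zero (hw1 i)) (hz i)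
    rwa [sub_add_cancel] at h
  obtain ⟨g, hg, h0, e⟩ := exists_map w hw
  have h1 : ∀ i, pull g hg h0 (zc i) - zc i ∈ maximalIdeal (ON N) ^ 2 := fun i => by
    rw [e]
    exact hw1 i
  refine ⟨g, hg, h0, h1, inv N g hg h0 h1, ?_⟩
  rw [map_sum, ← hw2]
  exact Finset.sum_congr rfl fun i _ => by rw [map_pow, e]

/-- a surjective endomorphism of a noetherian ring is injective -/
theorem hopf {R : Type} [CommRing R] [IsNoetherianRing R] (f : R →+* R)
    (hf : Function.Surjective f) : Function.Injective f := by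
  let K : ℕ →o Ideal R := ⟨fun n => RingHom.ker (f ^ n), monotone_nat_of_le_succ fun n x hx => by
    rw [RingHom.mem_ker, RingHom.coe_pow] at hx ⊢
    rw [Function.iterate_succ_apply', hx, map_zero]⟩
  obtain ⟨n, hn⟩ := monotone_stabilizes_iff_noetherian.2
    (inferInstance : IsNoetherian R R) K
  rw [injective_iff_map_eq_zero]
  intro x hx
  obtain ⟨y, rfl⟩ := hf.iterate n x
  have h1 : y ∈ K (n + 1) := by
    show y ∈ RingHom.ker (f ^ (n + 1))
    rw [RingHom.mem_ker, RingHom.coe_pow, Function.iterate_succ_apply', hx]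
  rw [← hn (n + 1) (Nat.le_succ n)] at h1
  have h2 : y ∈ RingHom.ker (f ^ n) := h1
  rwa [RingHom.mem_ker, RingHom.coe_pow] at h2

/-- the Morse lemma: an automorphism which carries the sum of squares to `f` -/
theorem morse_equiv (hJ : JET) (N : ℕ) [IsNoetherianRing (ON N)] (f : ON N)
    (hf : f - ∑ i, zc i ^ 2 ∈ maximalIdeal (ON N) ^ 3) :
    ∃ e : ON N ≃ₐ[ℂ] ON N, (∀ i, e (zc i) - zc i ∈ maximalIdeal (ON N) ^ 2) ∧
      e (∑ i, zc i ^ 2) = f := by
  obtain ⟨g, hg, h0, h1, h2, h3⟩ := morse_pull hJ N f hf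
  exact ⟨AlgEquiv.ofBijective (pull g hg h0)
    ⟨hopf (pull g hg h0 : ON N →+* ON N) h2, h2⟩, h1, h3⟩

end Vale.Agent.P282A71
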