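import Vale.Agent.P282A71.Sk

/-!
P282, analytic double points: row SQRT (completing squares).
-/

open Filter Topology IsLocalRing
open Vale.Agent.P298.H941

noncomputable section

namespace Vale.Agent.P282A71

/-- completing squares over a ring in which the elements congruent to one have square roots -/
theorem sqrt_gen {R : Type} [CommRing R] (I : Ideal R)
    (hs : ∀ a : R, a - 1 ∈ I → ∃ s t : R, s - 1 ∈ I ∧ s * s = a ∧ s * t = 1) (m : ℕ) :
    ∀ M : Matrix (Fin m) (Fin m) R, M.IsSymm →
      (∀ i j, M i j - (1 : Matrix (Fin m) (Fin m) R) i j ∈ I) →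
      ∃ S : Matrix (Fin m) (Fin m) R, (∀ i j, S i j - (1 : Matrix (Fin m) (Fin m) R) i j ∈ I) ∧
        S.transpose * S = M := by
  induction m with
  | zero =>
    intro M _ _
    exact ⟨M, fun i => i.elim0, by ext i; exact i.elim0⟩
  | succ m ih =>
    intro M hM hI
    have h00 : M 0 0 - 1 ∈ I := by
      have h := hI 0 0
      rwa [Matrix.one_apply_eq] at h
    have h0s : ∀ j : Fin m, M 0 j.succ ∈ I := by
      intro j
      have h := hI 0 j.succ
      rwa [Matrix.one_apply_ne (Fin.succ_ne_zero j).symm, sub_zero] at h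
    have hss : ∀ i j : Fin m,
        (1 : Matrix (Fin (m + 1)) (Fin (m + 1)) R) i.succ j.succ =
          (1 : Matrix (Fin m) (Fin m) R) i j := by
      intro i j
      by_cases h : i = j
      · rw [h, Matrix.one_apply_eq, Matrix.one_apply_eq]
      · rw [Matrix.one_apply_ne h, Matrix.one_apply_ne fun h' => h (Fin.succ_injective _ h')]
    obtain ⟨s, t, hs1, hs2, hs3⟩ := hs (M 0 0) h00
    obtain ⟨T, hT1, hT2⟩ := ih
      (Matrix.of fun i j : Fin m => M i.succ j.succ - M 0 i.succ * t * (M 0 j.succ * t))
      (by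
        ext i j
        rw [Matrix.transpose_apply, Matrix.of_apply, Matrix.of_apply, hM.apply j.succ i.succ,
          mul_comm (M 0 j.succ * t)])
      (by
        intro i j
        rw [Matrix.of_apply, ← hss, sub_right_comm]
        exact I.sub_mem (hI i.succ j.succ)
          (I.mul_mem_right _ (I.mul_mem_right _ (h0s i))))
    have hT3 : ∀ i j : Fin m, ∑ k, T k i * T k j =
        M i.succ j.succ - M 0 i.succ * t * (M 0 j.succ * t) := by
      intro i j
      have h := congrFun (congrFun hT2 i) j
      rw [Matrix.mul_apply, Matrix.of_apply] at h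
      exact h
    refine ⟨Matrix.of fun i j => Fin.cases (motive := fun _ => R)
      (Fin.cases (motive := fun _ => R) s (fun j' => M 0 j'.succ * t) j)
      (fun i' => Fin.cases (motive := fun _ => R) 0 (fun j' => T i' j') j) i, ?_, ?_⟩
    · intro i j
      refine Fin.cases ?_ (fun i' => ?_) i <;> refine Fin.cases ?_ (fun j' => ?_) j
      · rw [Matrix.one_apply_eq]
        exact hs1
      · rw [Matrix.one_apply_ne (Fin.succ_ne_zero j').symm, sub_zero]
        exact I.mul_mem_right _ (h0s j')
      · rw [Matrix.one_apply_ne (Fin.succ_ne_zero i'), sub_zero]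
        exact I.zero_mem
      · rw [hss]
        exact hT1 i' j'
    · ext i j
      rw [Matrix.mul_apply, Fin.sum_univ_succ]
      refine Fin.cases ?_ (fun i' => ?_) i <;> refine Fin.cases ?_ (fun j' => ?_) j
      · show s * s + ∑ _k : Fin m, (0 : R) * 0 = M 0 0
        rw [hs2, mul_zero, Finset.sum_const_zero, add_zero]
      · show s * (M 0 j'.succ * t) + ∑ k : Fin m, (0 : R) * T k j' = M 0 j'.succ
        rw [Finset.sum_eq_zero fun k _ => zero_mul _, add_zero, mul_left_comm, hs3, mul_one]
      · show M 0 i'.succ * t * s + ∑ k : Fin m, T k i' * (0 : R) = M i'.succ 0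
        rw [Finset.sum_eq_zero fun k _ => mul_zero _, add_zero, mul_assoc, mul_comm t s, hs3,
          mul_one, hM.apply 0 i'.succ]
      · show M 0 i'.succ * t * (M 0 j'.succ * t) + ∑ k : Fin m, T k i' * T k j' =
          M i'.succ j'.succ
        rw [hT3, add_sub_cancel]

/-- a germ with value one at the origin has a square root with value one -/
theorem sqrt_germ {N : ℕ} (a : ON N) (ha : a - 1 ∈ maximalIdeal (ON N)) :
    ∃ s t : ON N, s - 1 ∈ maximalIdeal (ON N) ∧ s * s = a ∧ s * t = 1 := by
  obtain ⟨f, hf, rfl⟩ := exists_rep a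
  rw [P298.H941.mem_maximalIdeal, map_sub, map_one, ev0_mk, sub_eq_zero] at ha
  have hsl : f 0 ∈ Complex.slitPlane := by
    rw [ha]
    exact Complex.one_mem_slitPlane
  have hg : AnalyticAt ℂ (fun x => Complex.exp ((1 / 2 : ℂ) * Complex.log (f x))) 0 :=
    (analyticAt_const.mul (hf.clog hsl)).cexp
  have h1 : ev0 (Fin N → ℂ) (mk _ hg) = 1 := by
    rw [ev0_mk, ha, Complex.log_one, mul_zero, Complex.exp_zero]
  have hu : IsUnit (mk _ hg) := by
    rw [P298.H941.isUnit_iff, h1]
    exact one_ne_zero
  obtain ⟨t, ht⟩ := hu.exists_right_inv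
  refine ⟨mk _ hg, t, ?_, ?_, ht⟩
  · rw [P298.H941.mem_maximalIdeal, map_sub, map_one, h1, sub_self]
  · rw [mk_mul]
    refine mk_congr _ _ ?_
    have hne : f 0 ≠ 0 := by
      rw [ha]
      exact one_ne_zero
    filter_upwards [hf.continuousAt.eventually_ne hne] with x hx
    rw [← Complex.exp_add, ← add_mul, add_halves, one_mul, Complex.exp_log hx]

theorem sqrt : SQRT := by
  intro N m H hH hI
  obtain ⟨S, hS1, hS2⟩ := sqrt_gen (maximalIdeal (ON N)) sqrt_germ m (1 + H)
    (Matrix.isSymm_one.add hH)
    (by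
      intro i j
      rw [Matrix.add_apply, add_sub_cancel_left]
      exact hI i j)
  refine ⟨S - 1, fun i j => ?_, ?_⟩
  · rw [Matrix.sub_apply]
    exact hS1 i j
  · rw [add_sub_cancel]
    exact hS2

end Vale.Agent.P282A71
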