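import Vale.Agent.P282A53.Morse
import Vale.Agent.P282A74.Reg

/-!
P282, analytic double points: maps of analytic algebras which are onto on cotangent spaces.
-/

open Filter Topology IsLocalRing
open Vale.Agent.P298.H941

noncomputable section

namespace Vale.Agent.P282A71

theorem zc_max (hJ : JET) {N : ℕ} (i : Fin N) : zc i ∈ maximalIdeal (ON N) := by
  rw [(hJ N).1]
  exact Ideal.subset_span ⟨i, rfl⟩

theorem hom_pow (hJ : JET) {N : ℕ} {S : Type} [CommRing S] [Algebra ℂ S] (n : Ideal S)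
    (χ : ON N →ₐ[ℂ] S) (hχ : ∀ j, χ (zc j) ∈ n) (k : ℕ) (b : ON N)
    (hb : b ∈ maximalIdeal (ON N) ^ k) : χ b ∈ n ^ k := by
  have h1 : (maximalIdeal (ON N)).map χ ≤ n := by
    rw [(hJ N).1, Ideal.map_span, Ideal.span_le]
    rintro _ ⟨_, ⟨j, rfl⟩, rfl⟩
    exact hχ j
  have h2 := Ideal.mem_map_of_mem χ hb
  rw [Ideal.map_pow] at h2
  exact Ideal.pow_right_mono h1 k h2

/-- local homomorphisms which agree on the coordinates modulo `K` agree modulo `K` -/
theorem hom_sub_mem (hJ : JET) {N : ℕ} {S : Type} [CommRing S] [Algebra ℂ S] [IsLocalRing S]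
    [IsNoetherianRing S] (K : Ideal S) (φ ψ : ON N →ₐ[ℂ] S)
    (hφ : ∀ j, φ (zc j) ∈ maximalIdeal S) (hψ : ∀ j, ψ (zc j) ∈ maximalIdeal S)
    (h : ∀ j, φ (zc j) - ψ (zc j) ∈ K) (a : ON N) : φ a - ψ a ∈ K := by
  have pol : ∀ p : MvPolynomial (Fin N) ℂ, φ (pl N p) - ψ (pl N p) ∈ K := by
    intro p
    have e : (Ideal.Quotient.mkₐ ℂ K).comp (φ.comp (pl N)) =
        (Ideal.Quotient.mkₐ ℂ K).comp (ψ.comp (pl N)) := by
      refine MvPolynomial.algHom_ext fun j => ?_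
      show Ideal.Quotient.mk K (φ (pl N (MvPolynomial.X j))) =
        Ideal.Quotient.mk K (ψ (pl N (MvPolynomial.X j)))
      rw [pl, MvPolynomial.aeval_X, Ideal.Quotient.eq]
      exact h j
    exact Ideal.Quotient.eq.1 (AlgHom.congr_fun e p)
  refine mem_of_forall_pow K fun k => ?_
  obtain ⟨p, hp⟩ := (hJ N).2.dense k a
  refine ⟨_, pol p, ?_⟩
  have e : φ a - ψ a - (φ (pl N p) - ψ (pl N p)) = φ (a - pl N p) - ψ (a - pl N p) := by
    rw [map_sub, map_sub]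
    ring
  rw [e]
  exact Ideal.sub_mem _ (hom_pow hJ _ φ hφ k _ hp) (hom_pow hJ _ ψ hψ k _ hp)

/-- a local homomorphism to a quotient of a ring of germs which is onto on cotangent spaces is
onto -/
theorem surj (hJ : JET) {N M : ℕ} (K : Ideal (ON N)) (hK : K ≤ maximalIdeal (ON N))
    (φ : ON M →ₐ[ℂ] ON N) (hφ : ∀ i, φ (zc i) ∈ maximalIdeal (ON N))
    (h : ∀ j, zc j ∈ Ideal.span (Set.range fun i => φ (zc i)) ⊔ K ⊔ maximalIdeal (ON N) ^ 2) :
    Function.Surjective ((Ideal.Quotient.mkₐ ℂ K).comp φ) := by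
  have : IsNoetherianRing (ON N) := P277Z.Oka.noe _
  have h1 : ∀ j, ∃ (a : Fin M → ON N) (k q : ON N), k ∈ K ∧ q ∈ maximalIdeal (ON N) ^ 2 ∧
      ∑ i, a i * φ (zc i) + k + q = zc j := by
    intro j
    obtain ⟨x, hx, q, hq, e⟩ := Submodule.mem_sup.1 (h j)
    obtain ⟨y, hy, k, hk, rfl⟩ := Submodule.mem_sup.1 hx
    obtain ⟨a, rfl⟩ := Ideal.mem_span_range_iff_exists_fun.1 hy
    exact ⟨a, k, q, hk, hq, e⟩
  choose a k q hk hq e using h1
  let u : Fin N → ON M := fun j => ∑ i, algebraMap ℂ (ON M) (ev0 _ (a j i)) * zc i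
  have hu : ∀ j, u j ∈ maximalIdeal (ON M) := fun j =>
    Ideal.sum_mem _ fun i _ => Ideal.mul_mem_left _ _ (zc_max hJ i)
  have hφu : ∀ j, φ (u j) ∈ maximalIdeal (ON N) := fun j => by
    have h2 := hom_pow hJ _ φ hφ 1 (u j) (by rw [pow_one]; exact hu j)
    rwa [pow_one] at h2
  obtain ⟨L, hL, L0, eL⟩ := exists_map u hu
  obtain ⟨γ, hγ, γ0, eγ⟩ := exists_map (fun j => φ (u j) + k j)
    fun j => Ideal.add_mem _ (hφu j) (hK (hk j))
  have hs : Function.Surjective (pull γ hγ γ0) := by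
    refine inv N γ hγ γ0 fun j => ?_
    have e1 : φ (u j) = ∑ i, algebraMap ℂ (ON N) (ev0 _ (a j i)) * φ (zc i) := by
      rw [map_sum]
      exact Finset.sum_congr rfl fun i _ => by rw [map_mul, AlgHom.commutes]
    have e2 : φ (u j) + k j - zc j =
        ∑ i, (algebraMap ℂ (ON N) (ev0 _ (a j i)) - a j i) * φ (zc i) - q j := by
      rw [Finset.sum_congr rfl fun i _ => sub_mul _ _ _, Finset.sum_sub_distrib, ← e1]
      linear_combination e j
    rw [eγ, e2]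
    refine Ideal.sub_mem _ ?_ (hq j)
    rw [sq]
    refine Ideal.sum_mem _ fun i _ => Ideal.mul_mem_mul ?_ (hφ i)
    rw [P298.H941.mem_maximalIdeal, map_sub, AlgHom.commutes]
    exact sub_self _
  intro x
  obtain ⟨f, rfl⟩ := Ideal.Quotient.mk_surjective x
  obtain ⟨F, rfl⟩ := hs f
  refine ⟨pull L hL L0 F, (Ideal.Quotient.eq.2 ?_).symm⟩
  refine hom_sub_mem hJ K (pull γ hγ γ0) (φ.comp (pull L hL L0)) (fun j => ?_) (fun j => ?_)
    (fun j => ?_) F
  · rw [eγ]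
    exact Ideal.add_mem _ (hφu j) (hK (hk j))
  · rw [AlgHom.comp_apply, eL]
    exact hφu j
  · rw [AlgHom.comp_apply, eL, eγ, add_sub_cancel_left]
    exact hk j

end Vale.Agent.P282A71
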