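import Vale.Agent.P282A71.Sk2

/-!
P282: row TOVAR, the spectrum of a normal affine model.
-/

open CategoryTheory AlgebraicGeometry IsLocalRing

namespace Vale.Agent.P282A53

theorem dim_alg (k A : Type) [Field k] [CommRing A] [IsDomain A] [Algebra k A]
    [Algebra.FiniteType k A] : ∃ s : ℕ, Algebra.trdeg k A = s ∧ ringKrullDim A = s := by
  obtain ⟨s, g, ginj, gint⟩ := exists_integral_inj_algHom_of_fg k A
  let P := MvPolynomial (Fin s) k
  let _ : Algebra P A := g.toRingHom.toAlgebra
  have : Algebra.IsIntegral P A := ⟨gint⟩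
  have : IsScalarTower k P A := .of_algebraMap_eq fun c => (g.commutes c).symm
  have : FaithfulSMul P A := (faithfulSMul_iff_algebraMap_injective _ _).2 ginj
  refine ⟨s, ?_, ?_⟩
  · rw [← trdeg_add_eq k P (A := A), trdeg_eq_zero (R := P), add_zero,
      MvPolynomial.trdeg_of_isDomain]
    simp
  have h : ringKrullDim P = s := by
    rw [MvPolynomial.ringKrullDim_of_isNoetherianRing, ringKrullDim_eq_zero_of_field]
    simp
  rw [← h]
  refine le_antisymm (Order.krullDim_le_of_strictMono
    (fun p => PrimeSpectrum.comap (algebraMap P A) p) fun p q hpq =>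
      Ideal.IsIntegral.comap_lt_comap hpq) (iSup_le fun l => ?_)
  obtain ⟨Q, hQ⟩ := RingHom.IsIntegral.comap_surjective (f := algebraMap P A) gint ginj l.head
  have hlo : Q.asIdeal.LiesOver l.head.asIdeal := ⟨by rw [← hQ]; rfl⟩
  obtain ⟨L, hL, -⟩ := Ideal.exists_ltSeries_of_hasGoingUp l Q.asIdeal
  rw [← hL]
  exact Order.LTSeries.length_le_krullDim L

theorem normal_stalk (A : Type) [CommRing A] [IsDomain A] [IsIntegrallyClosed A]
    (y : PrimeSpectrum A) : IsIntegrallyClosed ((Spec (CommRingCat.of A)).presheaf.stalk y) := by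
  have h : IsIntegrallyClosed (Localization.AtPrime y.asIdeal) :=
    isIntegrallyClosed_of_isLocalization _ y.asIdeal.primeCompl
      y.asIdeal.primeCompl_le_nonZeroDivisors
  exact IsIntegrallyClosed.of_equiv (R := Localization.AtPrime y.asIdeal) (h := h)
    (Spec.stalkIso (CommRingCat.of A) y).symm.commRingCatIsoToRingEquiv

theorem point (R A : Type) [CommRing R] [IsDomain R] [Algebra ℂ R] [CommRing A] [IsDomain A]
    [Algebra ℂ A] [Algebra A R] [IsScalarTower ℂ A R] [hft : Algebra.FiniteType ℂ A]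
    [IsIntegrallyClosed A] (m : Ideal A) [hm : m.IsMaximal] [IsLocalization.AtPrime R m] (n : ℕ)
    (hn : Algebra.trdeg ℂ R = n) :
    ∃ (X : Scheme.{0}) (f : X ⟶ Spec (CommRingCat.of ℂ)) (x : X), P282A71.IsPointOf R n f x := by
  obtain ⟨s, h1, h2⟩ := dim_alg ℂ A
  have hs : s = n := by
    have := IsLocalization.isAlgebraic R m.primeCompl
    have : FaithfulSMul A R := (faithfulSMul_iff_algebraMap_injective _ _).2
      (IsLocalization.injective R m.primeCompl_le_nonZeroDivisors)
    have : FaithfulSMul ℂ A := (faithfulSMul_iff_algebraMap_injective _ _).2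
      (algebraMap ℂ A).injective
    rw [← trdeg_add_eq ℂ A (A := R), trdeg_eq_zero (R := A), add_zero, h1] at hn
    exact_mod_cast hn
  let x : PrimeSpectrum A := ⟨m, hm.isPrime⟩
  let φ : CommRingCat.of ℂ ⟶ CommRingCat.of A := CommRingCat.ofHom (algebraMap ℂ A)
  refine ⟨Spec (CommRingCat.of A), Spec.map φ, x, inferInstance, inferInstance,
    HasRingHomProperty.Spec_iff.2 (RingHom.finiteType_algebraMap.2 hft), inferInstance,
    fun y => normal_stalk A y, ?_, (PrimeSpectrum.isClosed_singleton_iff_isMaximal x).2 hm, ?_⟩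
  · rw [← hs, ← h2]
    exact PrimeSpectrum.topologicalKrullDim_eq_ringKrullDim A
  · let e : R ≃ₐ[A] Localization.AtPrime m := IsLocalization.algEquiv m.primeCompl _ _
    refine ⟨e.toRingEquiv.trans
      (Spec.stalkIso (CommRingCat.of A) x).symm.commRingCatIsoToRingEquiv, fun c => ?_⟩
    have e1 : e (algebraMap ℂ R c) = algebraMap A _ (algebraMap ℂ A c) := by
      rw [IsScalarTower.algebraMap_apply ℂ A R c]
      exact e.commutes (algebraMap ℂ A c)
    have e2 := ConcreteCategory.congr_hom (Scheme.ΓSpecIso_inv_naturality φ) c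
    have e3 := ConcreteCategory.congr_hom
      (Spec.algebraMap_stalkIso_inv (R := CommRingCat.of A) x) (algebraMap ℂ A c)
    show (Spec.stalkIso (CommRingCat.of A) x).inv.hom (e (algebraMap ℂ R c)) = _
    rw [e1]
    exact e3.trans (congrArg ((Spec (CommRingCat.of A)).presheaf.germ ⊤ x trivial).hom e2)

end Vale.Agent.P282A53

namespace Vale.Agent.P282A71

theorem tovar : TOVAR := fun R _ _ _ _ n A hA _ m _ _ hn =>
  P282A53.point R A (hft := (Subalgebra.fg_iff_finiteType A).1 hA) m n hn

end Vale.Agent.P282A71
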